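import Crest.Agent.Helper19.Ruled.Defs

/-!
# Row 211, S0326: a `Finset`-indexed square family gives `SqCover`
-/

set_option autoImplicit false

namespace Crest.Agent.Helper19

open Set

/-- **REINDEX.** A family of squares indexed by a finset `I` of an arbitrary index type, covering
the ruled set over `D'` with total cost `≤ cost`, gives `SqCover V L h D' cost`. -/
theorem sqCover_of_finset {ι : Type*} (I : Finset ι) {V : E2 → E2} {L h : ℝ} {D' : Set E2}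
    {cost : ℝ} (c a b g : ι → E2)
    (hsq : ∀ i ∈ I, a i ≠ 0 ∧ ‖b i‖ = ‖a i‖ ∧ inner ℝ (a i) (b i) = 0)
    (hcov : ∀ p ∈ D', ∀ s : ℝ, |s| ≤ L → ∃ i ∈ I, ∃ x ∈ Set.Icc (0 : ℝ) 1,
      ∃ y ∈ Set.Icc (0 : ℝ) 1, p + s • V p = c i + x • a i + y • b i + s • g i)
    (hcost : ∑ i ∈ I, ‖a i‖ ^ 2 / Real.sqrt (1 + (g i 0) ^ 2 + h ^ 2 * (g i 1) ^ 2) ≤ cost) :
    SqCover V L h D' cost := by
  classical
  let e : I ≃ Fin I.card := I.equivFin
  refine ⟨I.card, fun j => c (e.symm j), fun j => a (e.symm j), fun j => b (e.symm j),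
    fun j => g (e.symm j), fun j => hsq _ (e.symm j).2, ?_, ?_⟩
  · rintro ⟨s, z⟩ ⟨p, hp, hs, hz⟩
    obtain ⟨i, hi, x, hx, y, hy, hxy⟩ := hcov p hp s hs
    refine mem_iUnion.2 ⟨e ⟨i, hi⟩, x, hx, y, hy, ?_⟩
    simp only [Equiv.symm_apply_apply]
    simp only at hz
    rw [hz]
    exact hxy
  · have h1 : ∑ j : Fin I.card, ‖a (e.symm j)‖ ^ 2 /
        Real.sqrt (1 + (g (e.symm j) 0) ^ 2 + h ^ 2 * (g (e.symm j) 1) ^ 2)
        = ∑ i : I, ‖a i‖ ^ 2 / Real.sqrt (1 + (g i 0) ^ 2 + h ^ 2 * (g i 1) ^ 2) :=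
      Equiv.sum_comp e.symm
        (fun i : I => ‖a i‖ ^ 2 / Real.sqrt (1 + (g i 0) ^ 2 + h ^ 2 * (g i 1) ^ 2))
    rw [h1, Finset.sum_coe_sort I
      (fun i => ‖a i‖ ^ 2 / Real.sqrt (1 + (g i 0) ^ 2 + h ^ 2 * (g i 1) ^ 2))]
    exact hcost

end Crest.Agent.Helper19
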