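import Mathlib

/-!
# Uniform strict differentiability on compact sets (row 211, S0326, package USD)

For `V` of class `C¹` on an open set `U` containing a compact set `D`:
* `uniform_strict_diff`: for every `η > 0` there is `δ > 0` such that for every `p₀ ∈ D` and all
  `p, q` within `δ` of `p₀`: `‖V p - V q - fderiv ℝ V p₀ (p - q)‖ ≤ η * ‖p - q‖`.
* `exists_fderiv_norm_bound`: `‖fderiv ℝ V p‖` is bounded on `D`.
* `exists_neg_det_bound`: if `-(L²)⁻¹ < det (fderiv ℝ V p) ≤ 0` on `D`, then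
  `- det (fderiv ℝ V p) ≤ d` on `D` for some `0 ≤ d < (L²)⁻¹`.
-/

set_option autoImplicit false

namespace Crest.Agent.Helper19

open Set Metric Topology Filter

section General

variable {E F : Type*} [NormedAddCommGroup E] [NormedSpace ℝ E]
  [NormedAddCommGroup F] [NormedSpace ℝ F]

/-- Local version of uniform strict differentiability. -/
theorem local_strict_diff {U : Set E} {V : E → F} (hU : IsOpen U)
    (hV : ContDiffOn ℝ 1 V U) {η : ℝ} (hη : 0 < η) {x : E} (hx : x ∈ U) :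
    ∃ r > 0, ∀ p₀ ∈ ball x r, ∀ p ∈ ball x r, ∀ q ∈ ball x r,
      ‖V p - V q - fderiv ℝ V p₀ (p - q)‖ ≤ η * ‖p - q‖ := by
  have hxU : U ∈ 𝓝 x := hU.mem_nhds hx
  have hcd : ContDiffAt ℝ 1 V x := hV.contDiffAt hxU
  have hs : HasStrictFDerivAt V (fderiv ℝ V x) x := hcd.hasStrictFDerivAt (by simp)
  have hcont : ContinuousAt (fderiv ℝ V) x :=
    (hV.continuousOn_fderiv_of_isOpen hU le_rfl).continuousAt hxU
  have h1 : ∀ᶠ z : E × E in 𝓝 (x, x),
      ‖V z.1 - V z.2 - fderiv ℝ V x (z.1 - z.2)‖ ≤ (η / 2) * ‖z.1 - z.2‖ :=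
    hs.isLittleO.bound (half_pos hη)
  have h2 : ∀ᶠ y in 𝓝 x, dist (fderiv ℝ V y) (fderiv ℝ V x) < η / 2 :=
    hcont.eventually (ball_mem_nhds _ (half_pos hη))
  rw [nhds_prod_eq] at h1
  obtain ⟨r1, hr1, h1'⟩ : ∃ r1 > 0, ∀ p ∈ ball x r1, ∀ q ∈ ball x r1,
      ‖V p - V q - fderiv ℝ V x (p - q)‖ ≤ (η / 2) * ‖p - q‖ := by
    obtain ⟨pa, ha, pb, hb, hab⟩ := Filter.eventually_prod_iff.1 h1
    obtain ⟨ra, hra, hra'⟩ := Metric.eventually_nhds_iff_ball.1 ha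
    obtain ⟨rb, hrb, hrb'⟩ := Metric.eventually_nhds_iff_ball.1 hb
    refine ⟨min ra rb, lt_min hra hrb, fun p hp q hq => ?_⟩
    exact hab (hra' p (ball_subset_ball (min_le_left _ _) hp))
      (hrb' q (ball_subset_ball (min_le_right _ _) hq))
  obtain ⟨r2, hr2, h2'⟩ := Metric.eventually_nhds_iff_ball.1 h2
  refine ⟨min r1 r2, lt_min hr1 hr2, fun p₀ hp₀ p hp q hq => ?_⟩
  have e1 := h1' p (ball_subset_ball (min_le_left _ _) hp) q (ball_subset_ball (min_le_left _ _) hq)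
  have e2 : ‖fderiv ℝ V p₀ - fderiv ℝ V x‖ ≤ η / 2 := by
    have := h2' p₀ (ball_subset_ball (min_le_right _ _) hp₀)
    rw [dist_eq_norm] at this
    exact this.le
  have e3 : ‖(fderiv ℝ V x - fderiv ℝ V p₀) (p - q)‖ ≤ (η / 2) * ‖p - q‖ := by
    refine (ContinuousLinearMap.le_opNorm _ _).trans ?_
    rw [norm_sub_rev]
    exact mul_le_mul_of_nonneg_right e2 (norm_nonneg _)
  have e4 : V p - V q - fderiv ℝ V p₀ (p - q)
      = (V p - V q - fderiv ℝ V x (p - q)) + (fderiv ℝ V x - fderiv ℝ V p₀) (p - q) := by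
    have : (fderiv ℝ V x - fderiv ℝ V p₀) (p - q)
        = fderiv ℝ V x (p - q) - fderiv ℝ V p₀ (p - q) := rfl
    rw [this]
    abel
  rw [e4]
  calc ‖(V p - V q - fderiv ℝ V x (p - q)) + (fderiv ℝ V x - fderiv ℝ V p₀) (p - q)‖
      ≤ ‖V p - V q - fderiv ℝ V x (p - q)‖ + ‖(fderiv ℝ V x - fderiv ℝ V p₀) (p - q)‖ :=
        norm_add_le _ _
    _ ≤ (η / 2) * ‖p - q‖ + (η / 2) * ‖p - q‖ := add_le_add e1 e3
    _ = η * ‖p - q‖ := by ring

/-- **Uniform strict differentiability** of a `C¹` map on a compact set. -/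
theorem uniform_strict_diff {D U : Set E} {V : E → F} (hD : IsCompact D) (hU : IsOpen U)
    (hDU : D ⊆ U) (hV : ContDiffOn ℝ 1 V U) {η : ℝ} (hη : 0 < η) :
    ∃ δ > 0, ∀ p₀ ∈ D, ∀ p q, dist p p₀ < δ → dist q p₀ < δ →
      ‖V p - V q - fderiv ℝ V p₀ (p - q)‖ ≤ η * ‖p - q‖ := by
  have key : ∀ x : D, ∃ r > 0, ∀ p₀ ∈ ball (x : E) r, ∀ p ∈ ball (x : E) r, ∀ q ∈ ball (x : E) r,
      ‖V p - V q - fderiv ℝ V p₀ (p - q)‖ ≤ η * ‖p - q‖ :=
    fun x => local_strict_diff hU hV hη (hDU x.2)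
  choose r hr hkey using key
  obtain ⟨δ, hδ, hleb⟩ := lebesgue_number_lemma_of_metric (c := fun x : D => ball (x : E) (r x)) hD
    (fun _ => isOpen_ball) (fun x hx => mem_iUnion.2 ⟨⟨x, hx⟩, mem_ball_self (hr _)⟩)
  refine ⟨δ, hδ, fun p₀ hp₀ p q hp hq => ?_⟩
  obtain ⟨x, hx⟩ := hleb p₀ hp₀
  exact hkey x p₀ (hx (mem_ball_self hδ)) p (hx hp) q (hx hq)

/-- The derivative of a `C¹` map is bounded on a compact set. -/
theorem exists_fderiv_norm_bound {D U : Set E} {V : E → F} (hD : IsCompact D) (hU : IsOpen U)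
    (hDU : D ⊆ U) (hV : ContDiffOn ℝ 1 V U) :
    ∃ B : ℝ, 0 ≤ B ∧ ∀ p ∈ D, ‖fderiv ℝ V p‖ ≤ B := by
  have hc : ContinuousOn (fun p => ‖fderiv ℝ V p‖) D :=
    ((hV.continuousOn_fderiv_of_isOpen hU le_rfl).mono hDU).norm
  obtain ⟨B, hB⟩ := (hD.image_of_continuousOn hc).bddAbove
  refine ⟨max B 0, le_max_right _ _, fun p hp => ?_⟩
  exact (hB (mem_image_of_mem _ hp)).trans (le_max_left _ _)

end General

section Det

variable {E : Type*} [NormedAddCommGroup E] [NormedSpace ℝ E]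

/-- The determinant of the derivative stays uniformly away from `-(L²)⁻¹` on a compact set. -/
theorem exists_neg_det_bound {D U : Set E} {V : E → E} (hD : IsCompact D) (hU : IsOpen U)
    (hDU : D ⊆ U) (hV : ContDiffOn ℝ 1 V U) {L : ℝ} (hL : 0 < L)
    (hdet : ∀ p ∈ D, -(L ^ 2)⁻¹ < LinearMap.det (fderiv ℝ V p).toLinearMap ∧
      LinearMap.det (fderiv ℝ V p).toLinearMap ≤ 0) :
    ∃ d : ℝ, 0 ≤ d ∧ d < (L ^ 2)⁻¹ ∧ ∀ p ∈ D, -LinearMap.det (fderiv ℝ V p).toLinearMap ≤ d := by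
  have hLpos : 0 < (L ^ 2)⁻¹ := inv_pos.2 (pow_pos hL 2)
  rcases D.eq_empty_or_nonempty with rfl | hne
  · exact ⟨0, le_rfl, hLpos, fun p hp => absurd hp (notMem_empty p)⟩
  have hc : ContinuousOn (fun p => -LinearMap.det (fderiv ℝ V p).toLinearMap) D := by
    have h1 : ContinuousOn (fderiv ℝ V) D :=
      (hV.continuousOn_fderiv_of_isOpen hU le_rfl).mono hDU
    have h2 : Continuous (fun A : E →L[ℝ] E => LinearMap.det A.toLinearMap) := by
      have : (fun A : E →L[ℝ] E => LinearMap.det A.toLinearMap) = fun A : E →L[ℝ] E => A.det := by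
        funext A; rfl
      rw [this]
      exact ContinuousLinearMap.continuous_det
    exact (h2.comp_continuousOn h1).neg
  obtain ⟨p₁, hp₁, hmax⟩ := hD.exists_isMaxOn hne hc
  refine ⟨-LinearMap.det (fderiv ℝ V p₁).toLinearMap, ?_, ?_, fun p hp => hmax hp⟩
  · have := (hdet p₁ hp₁).2; linarith
  · have := (hdet p₁ hp₁).1; linarith

end Det

end Crest.Agent.Helper19
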